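import Vale.Agent.P159.Decay

open Filter Topology
open scoped Real

namespace Vale.Agent.Results.P159.DecayExponent

open Vale.Agent.P159

/-- For the square-lattice XY model at any `b > 0`, the free-boundary two-point function decays
at least like `r ^ (-η)` for every `η < 1 / (2 π b A(4b))`, where `A = I₁/I₀ < 1`, uniformly in
the box; hence so does every infinite-volume limit. -/
theorem result :
    ∀ b : ℝ, 0 < b →
      (0 < bessel (4 * b) ∧ bessel (4 * b) < 1) ∧
      ∀ η : ℝ, η < 1 / (2 * π * b * bessel (4 * b)) → ∃ C : ℝ, 0 < C ∧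
        (∀ r R : ℕ, 1 ≤ r → r ≤ R → correlation b R r ≤ C * (r : ℝ) ^ (-η)) ∧
        ∀ r : ℕ, 1 ≤ r → ∀ c : ℝ, Tendsto (fun R : ℕ => correlation b R r) atTop (𝓝 c) →
          c ≤ C * (r : ℝ) ^ (-η) := by
  intro b hb
  refine ⟨⟨bessel_pos (by linarith), bessel_lt_one _⟩, fun η hη => ?_⟩
  obtain ⟨C, hC, hdec⟩ := decay hb hη
  exact ⟨C, hC, hdec, fun r hr c hc =>
    le_of_tendsto hc (eventually_atTop.2 ⟨r, fun R hR => hdec r R hr hR⟩)⟩

end Vale.Agent.Results.P159.DecayExponent
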